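/-!
Tables computed from the certificate: boundary of the three-chains, circles of the tori.
A table `t` is a nested list: `t[a0][a1][a2][a3]` is the value of the functional at the monomial
`X0^a0 X1^a1 X2^a2 X3^a3 X4^a4` of degree seven, `a4 = 7 - a0 - a1 - a2 - a3`
(`X0, ..., X4` are the bivectors `e1 e2, e1 f2, f1 e2, f1 f2, e1 f1`), all 330 values.
-/

namespace Vale.Agent.P273.H480

/-- the part of the coefficient of the cell 34 which is fixed by s4 -/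
def tn4 : List (List (List (List Int))) :=
[[[[-144, 0, 0, 0, 0, 0, 0, 0], [-270, 0, 0, 0, 0, 0, 0], [-340, 0, 0, 0, 0, 0], [-255, 0, 0, 0,
   0], [12, 0, 0, 0], [112, 0, 0], [-33, 0], [42]],
  [[0, 0, 0, 0, 0, 0, 0], [-72, 0, 0, 0, 0, 0], [-180, 0, 0, 0, 0], [-255, 0, 0, 0], [-204, 0,
   0], [10, 0], [96]],
  [[0, 0, 0, 0, 0, 0], [0, 0, 0, 0, 0], [-48, 0, 0, 0], [-135, 0, 0], [-204, 0], [-170]],
  [[0, 0, 0, 0, 0], [0, 0, 0, 0], [0, 0, 0], [-36, 0], [-108]],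
  [[0, 0, 0, 0], [0, 0, 0], [0, 0], [0]],
  [[0, 0, 0], [0, 0], [0]],
  [[0, 0], [0]],
  [[0]]],
 [[[-180, 72, 0, 0, 0, 0, 0], [-240, 90, 0, 0, 0, 0], [-175, 85, 0, 0, 0], [-51, 51, 0, 0], [-84,
   -2, 0], [61, -16], [-113]],
  [[0, 0, 0, 0, 0, 0], [-60, 24, 0, 0, 0], [-120, 45, 0, 0], [-105, 51, 0], [-34, 34], [-60]],
  [[0, 0, 0, 0, 0], [0, 0, 0, 0], [-30, 12, 0], [-72, 27], [-70]],
  [[0, 0, 0, 0], [0, 0, 0], [0, 0], [-18]],
  [[0, 0, 0], [0, 0], [0]],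
  [[0, 0], [0]],
  [[0]]],
 [[[-40, 120, -48, 0, 0, 0], [-75, 120, -45, 0, 0], [20, 70, -34, 0], [147, 17, -17], [-38, 24],
   [36]],
  [[0, 0, 0, 0, 0], [-10, 30, -12, 0], [-30, 48, -18], [10, 35], [84]],
  [[0, 0, 0, 0], [0, 0, 0], [-4, 12], [-15]],
  [[0, 0, 0], [0, 0], [0]],
  [[0, 0], [0]],
  [[0]]],
 [[[180, 30, -90, 36, 0], [141, 45, -72, 27], [-28, -10, -35], [-139, -63], [113]],
  [[0, 0, 0, 0], [36, 6, -18], [47, 15], [-12]],
  [[0, 0, 0], [0, 0], [12]],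
  [[0, 0], [0]],
  [[0]]],
 [[[132, -144, -24, 72], [322, -94, -30], [74, 16], [-23]],
  [[0, 0, 0], [22, -24], [92]],
  [[0, 0], [0]],
  [[0]]],
 [[[-420, -110, 120], [-129, -230], [-59]],
  [[0, 0], [-60]],
  [[0]]],
 [[[11, 360], [-92]],
  [[0]]],
 [[[3780]]]]

/-- coefficient of the cell 14 -/
def tn14 : List (List (List (List Int))) :=
[[[[-3444, 7560, -3480, -6945, 52236, -145705, 223179, 26033], [-5940, 10620, -15045, 31143,
   -46228, 19611, 96954], [-4420, 5990, -2116, 9233, -39341, 66042], [-2805, 5670, 2394, -16806,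
   10495], [-1314, 6531, -10916, -1096], [2464, -1877, -9354], [3946, -9118], [-7232]],
  [[0, 0, 0, 0, 0, 0, 0], [-1722, 2520, -870, -1389, 8706, -20815], [-3960, 5310, -6018, 10381,
   -13208], [-3315, 3594, -1058, 3957], [-2244, 3780, 1368], [-1095, 4665], [2112]],
  [[0, 0, 0, 0, 0, 0], [0, 0, 0, 0, 0], [-1148, 1260, -348, -463], [-2970, 3186, -3009], [-2652,
   2396], [-1870]],
  [[0, 0, 0, 0, 0], [0, 0, 0, 0], [0, 0, 0], [-861, 756], [-2376]],
  [[0, 0, 0, 0], [0, 0, 0], [0, 0], [0]],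
  [[0, 0, 0], [0, 0], [0]],
  [[0, 0], [0]],
  [[0]]],
 [[[0, 1722, -5040, 2610, 5556, -43530, 124890], [0, 1980, -5310, 9027, -20762, 33020], [0, 1105,
   -2396, 1058, -5276], [0, 561, -1890, -1026], [0, 219, -1866], [0, -352], [0]],
  [[0, 0, 0, 0, 0, 0], [0, 574, -1260, 522, 926], [0, 990, -2124, 3009], [0, 663, -1198], [0,
   374], [0]],
  [[0, 0, 0, 0, 0], [0, 0, 0, 0], [0, 287, -504], [0, 594], [0]],
  [[0, 0, 0, 0], [0, 0, 0], [0, 0], [0]],
  [[0, 0, 0], [0, 0], [0]],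
  [[0, 0], [0]],
  [[0]]],
 [[[0, 0, -1148, 3780, -2088, -4630], [0, 0, -990, 3186, -6018], [0, 0, -442, 1198], [0, 0,
   -187], [0, 0], [0]],
  [[0, 0, 0, 0, 0], [0, 0, -287, 756], [0, 0, -396], [0, 0], [0]],
  [[0, 0, 0, 0], [0, 0, 0], [0, 0], [0]],
  [[0, 0, 0], [0, 0], [0]],
  [[0, 0], [0]],
  [[0]]],
 [[[0, 0, 0, 861, -3024], [0, 0, 0, 594], [0, 0, 0], [0, 0], [0]],
  [[0, 0, 0, 0], [0, 0, 0], [0, 0], [0]],
  [[0, 0, 0], [0, 0], [0]],
  [[0, 0], [0]],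
  [[0]]],
 [[[0, 0, 0, 0], [0, 0, 0], [0, 0], [0]],
  [[0, 0, 0], [0, 0], [0]],
  [[0, 0], [0]],
  [[0]]],
 [[[0, 0, 0], [0, 0], [0]],
  [[0, 0], [0]],
  [[0]]],
 [[[0, 0], [0]],
  [[0]]],
 [[[0]]]]

/-- coefficient of the cell 25 -/
def tn25 : List (List (List (List Int))) :=
[[[[-1800, 2880, -1840, -7485, 51924, -208495, 692377, -1855441], [0, 0, 0, 0, 0, 0, 0], [0, 0,
   0, 0, 0, 0], [0, 0, 0, 0, 0], [0, 0, 0, 0], [0, 0, 0], [0, 0], [0]],
  [[-1050, 1960, -8220, 26454, -75411, 204430, -456253], [-900, 960, -460, -1497, 8654, -29785],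
   [0, 0, 0, 0, 0], [0, 0, 0, 0], [0, 0, 0], [0, 0], [0]],
  [[2660, -3085, 5078, -9555, 18533, -11981], [-700, 980, -3288, 8818, -21546], [-600, 480, -184,
   -499], [0, 0, 0], [0, 0], [0]],
  [[3975, -3588, 5950, -13555, 36834], [1995, -1851, 2539, -4095], [-525, 588, -1644], [-450,
   288], [0]],
  [[2466, -854, -1706, 4741], [3180, -2392, 3400], [1596, -1234], [-420]],
  [[518, -343, -2177], [2055, -610], [2650]],
  [[-609, -233], [444]],
  [[1596]]],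
 [[[0, 900, -1920, 1380, 5988, -43270, 178710], [0, 0, 0, 0, 0, 0], [0, 0, 0, 0, 0], [0, 0, 0,
   0], [0, 0, 0], [0, 0], [0]],
  [[0, 350, -980, 4932, -17636, 53865], [0, 300, -480, 276, 998], [0, 0, 0, 0], [0, 0, 0], [0,
   0], [0]],
  [[0, -665, 1234, -2539, 5460], [0, 175, -392, 1644], [0, 150, -192], [0, 0], [0]],
  [[0, -795, 1196, -2550], [0, -399, 617], [0, 105], [0]],
  [[0, -411, 244], [0, -530], [0]],
  [[0, -74], [0]],
  [[0]]],
 [[[0, 0, -600, 1440, -1104, -4990], [0, 0, 0, 0, 0], [0, 0, 0, 0], [0, 0, 0], [0, 0], [0]],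
  [[0, 0, -175, 588, -3288], [0, 0, -150, 288], [0, 0, 0], [0, 0], [0]],
  [[0, 0, 266, -617], [0, 0, -70], [0, 0], [0]],
  [[0, 0, 265], [0, 0], [0]],
  [[0, 0], [0]],
  [[0]]],
 [[[0, 0, 0, 450, -1152], [0, 0, 0, 0], [0, 0, 0], [0, 0], [0]],
  [[0, 0, 0, 105], [0, 0, 0], [0, 0], [0]],
  [[0, 0, 0], [0, 0], [0]],
  [[0, 0], [0]],
  [[0]]],
 [[[0, 0, 0, 0], [0, 0, 0], [0, 0], [0]],
  [[0, 0, 0], [0, 0], [0]],
  [[0, 0], [0]],
  [[0]]],
 [[[0, 0, 0], [0, 0], [0]],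
  [[0, 0], [0]],
  [[0]]],
 [[[0, 0], [0]],
  [[0]]],
 [[[0]]]]

/-- coefficient of the cell 13 -/
def tw13 : List (List (List (List Int))) :=
[[[[-7303, 5418, 845, -14584, 50569, -129351, 201699, -1336], [-12872, 4705, 11922, -49331,
   130915, -247923, 174975], [-15307, -3953, 47092, -133770, 279546, -326559], [-10651, -39312,
   136315, -305268, 456145], [21079, -133372, 327245, -567024], [119601, -342245, 661449],
   [344487, -737961], [793217]],
  [[-4122, 2906, -1277, -171, 796, 929, -6953], [-7535, 4732, -1594, -2316, 7574, -16929],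
   [-13802, 6924, 1260, -14365, 36285], [-19911, 5905, 17093, -52614], [-23060, -11450, 65539],
   [-7597, -70634], [59862]],
  [[-2207, 1143, -688, 378, 124, 3240], [-3056, 1894, -884, -113, -119], [-6045, 3601, -1117,
   -888], [-12340, 6244, -844], [-20377, 8409], [-28512]],
  [[-1474, 1113, -1368, 1421, -1841], [-1811, 1301, -892, 1270], [-2408, 1406, -935], [-4633,
   2877], [-10364]],
  [[-945, 1206, -1747, 1782], [-1514, 1385, -1767], [-1629, 1521], [-2106]],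
  [[-552, 1022, -885], [-1107, 1328], [-1592]],
  [[-277, 231], [-542]],
  [[-72]]],
 [[[0, -232, -686, -2439, 12268, -42995, 112422], [1260, -930, 2219, -10662, 34966, -94630],
   [4440, -4604, 9858, -29999, 81156], [10710, -12409, 27862, -70776], [21624, -28676, 62738],
   [39180, -59739], [65880]],
  [[0, 1066, -1012, 393, 58, -915], [-252, 1490, -1131, 477, 1428], [276, 1462, -680, -2104],
   [2334, -466, 2504], [6984, -5452], [15660]],
  [[0, 396, 158, -204, 892], [-234, 648, -488, -51], [-476, 1412, -724], [-186, 1976], [1320]],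
  [[0, -40, 272, -399], [-6, 182, 220], [-360, 302], [-666]],
  [[0, -162, 122], [72, -78], [48]],
  [[0, 10], [0]],
  [[0]]],
 [[[0, -252, 1722, -445, 2916, -10840], [0, -984, 2392, -2899, 8558], [0, -2106, 4138, -7354],
   [0, -3726, 6957], [0, -5964], [0]],
  [[0, -234, -418, 524, -444], [0, -224, -78, 407], [0, -462, 514], [0, -1014], [0]],
  [[0, -6, -214, 62], [0, -126, -346], [0, -190], [0]],
  [[0, 72, -38], [0, 54], [0]],
  [[0, 0], [0]],
  [[0]]],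
 [[[0, 0, 28, -1800, 852], [0, 0, 522, -1878], [0, 0, 1092], [0, 0], [0]],
  [[0, 0, 108, 72], [0, 0, 34], [0, 0], [0]],
  [[0, 0, 60], [0, 0], [0]],
  [[0, 0], [0]],
  [[0]]],
 [[[0, 0, 0, 6], [0, 0, 0], [0, 0], [0]],
  [[0, 0, 0], [0, 0], [0]],
  [[0, 0], [0]],
  [[0]]],
 [[[0, 0, 0], [0, 0], [0]],
  [[0, 0], [0]],
  [[0]]],
 [[[0, 0], [0]],
  [[0]]],
 [[[0]]]]

/-- coefficient of the cell 15 -/
def tw15 : List (List (List (List Int))) :=
[[[[996, -726, 300, -435, 436, 851, 0, 0], [0, 0, -1400, 1830, -1003, -1342, 1673], [0, 1410,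
   -2510, 1958, -566, 67], [-30, 1890, -2365, 1643, 237], [180, 1817, -1373, -539], [0, 722,
   357], [-55, -1433], [-14]],
  [[0, 10, 130, -153, -421, 0, 0], [498, 478, -969, 705, 361, -1807], [-720, 1368, -1844, 1192,
   -128], [-1008, 2190, -2330, 990], [-936, 2140, -1330], [-210, 1255], [720]],
  [[-20, -225, 120, 373, 0, 0], [-720, 941, -578, 215, 1404], [-740, 1358, -1302, 265], [-1680,
   2082, -1676], [-1824, 2280], [-1400]],
  [[285, -120, -288, 0, 0], [-375, 69, -145, -555], [-1110, 1281, -418], [-1626, 1698], [-2388]],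
  [[372, 244, 0, 0], [288, -260, 114], [-516, 66], [-1308]],
  [[35, 0, 0], [490, 20], [350]],
  [[0, 0], [30]],
  [[0]]],
 [[[0, -498, 1204, -1269, 1140, -75, -2658], [0, -720, 1368, -444, -638, 875], [0, -1008, 780,
   180, -968], [0, -906, 250, 1035], [0, -390, -562], [0, 720], [0]],
  [[0, -720, 931, -708, 368, 1825], [720, -1238, 880, -333, -440], [672, -960, 714, 168], [456,
   -816, 90], [144, -464], [-240]],
  [[0, -355, 294, -265, -928], [240, -390, 340, 160], [720, -886, 340], [768, -708], [576]],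
  [[0, 3, -140, 402], [-30, -141, -3], [312, -198], [630]],
  [[0, 118, -224], [-72, 62], [-48]],
  [[0, -5], [0]],
  [[0]]],
 [[[0, 720, -740, -324, 936, -1580], [0, 672, -240, -654, 612], [0, 456, 192, -690], [0, 144,
   442], [0, -240], [0]],
  [[0, 240, 330, -591, 868], [0, 0, 352, -540], [0, 96, 252], [0, 120], [0]],
  [[0, -30, 214, -297], [0, 72, 192], [0, -90], [0]],
  [[0, -72, 59], [0, -18], [0]],
  [[0, 0], [0]],
  [[0]]],
 [[[0, 0, -720, 1092, -216], [0, 0, -576, 492], [0, 0, -336], [0, 0], [0]],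
  [[0, 0, -168, -138], [0, 0, -90], [0, 0], [0]],
  [[0, 0, 12], [0, 0], [0]],
  [[0, 0], [0]],
  [[0]]],
 [[[0, 0, 0, 630], [0, 0, 0], [0, 0], [0]],
  [[0, 0, 0], [0, 0], [0]],
  [[0, 0], [0]],
  [[0]]],
 [[[0, 0, 0], [0, 0], [0]],
  [[0, 0], [0]],
  [[0]]],
 [[[0, 0], [0]],
  [[0]]],
 [[[0]]]]

/-- coefficient of the cell 35 -/
def tw35 : List (List (List (List Int))) :=
[[[[-701, 346, 2924, -13573, 50562, -179016, 583244, -1569706], [-1680, 1607, -839, -65, 696,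
   234, 2501], [-1325, 719, -613, 1107, -1837, -893], [-740, -290, -520, 2321, -3811], [-225,
   -996, -508, 3991], [40, -685, -951], [55, 1207], [0]],
  [[1850, -5180, 15439, -50148, 162368, -508467, 1386669], [-1203, 544, 482, -2745, 8307,
   -25890], [-1026, 733, -850, 1145, -479], [-325, 125, -1070, 2691], [206, -548, -1735], [175,
   -582], [-670]],
  [[10995, -20523, 52163, -151173, 445366, -1205329], [848, -2400, 5842, -17118, 46213], [-833,
   541, -204, -277], [-280, 435, -1313], [507, 113], [720]],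
  [[30958, -59165, 146644, -396027, 1038543], [7902, -12033, 26178, -64601], [388, -1420, 2505],
   [-293, 469], [558]],
  [[76439, -151642, 362006, -894818], [24304, -39179, 83953], [5915, -7647], [32]],
  [[175708, -347995, 780715], [63135, -108448], [19850]],
  [[368642, -706281], [150024]],
  [[696365]]],
 [[[0, -502, 198, -2442, 10828, -42255, 153126], [0, 654, -874, -11, 1210, -1175], [0, 1000,
   -594, -457, 1584], [0, 946, -258, -1215], [0, 400, 414], [0, -710], [0]],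
  [[480, -1002, 2780, -9597, 33030, -116155], [-96, 370, -3, -686, 2468], [-312, 746, -298,
   -463], [-360, 832, -12], [-192, 514], [240]],
  [[960, -3093, 8490, -25985, 86572], [288, -460, 980, -3337], [-144, 540, -72], [-504, 838],
   [-672]],
  [[1260, -6654, 19986, -62691], [732, -1987, 4386], [234, -356], [-126]],
  [[1344, -13304, 43194], [1032, -4454], [600]],
  [[1260, -25684], [1140]],
  [[1080]]],
 [[[0, -96, 872, -201, 1756, -8360], [0, -312, 92, 576, -452], [0, -360, -168, 582], [0, -192,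
   -432], [0, 240], [0]],
  [[0, -192, 542, -1800, 6260], [0, -48, 170, -69], [0, -192, 92], [0, -312], [0]],
  [[0, -228, 1106, -4104], [0, -54, 104], [0, 18], [0]],
  [[0, -228, 2200], [0, -132], [0]],
  [[0, -204], [0]],
  [[0]]],
 [[[0, 0, 48, -702, 132], [0, 0, 120, 0], [0, 0, 48], [0, 0], [0]],
  [[0, 0, 138, -438], [0, 0, 66], [0, 0], [0]],
  [[0, 0, 96], [0, 0], [0]],
  [[0, 0], [0]],
  [[0]]],
 [[[0, 0, 0, 18], [0, 0, 0], [0, 0], [0]],
  [[0, 0, 0], [0, 0], [0]],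
  [[0, 0], [0]],
  [[0]]],
 [[[0, 0, 0], [0, 0], [0]],
  [[0, 0], [0]],
  [[0]]],
 [[[0, 0], [0]],
  [[0]]],
 [[[0]]]]

/-- coefficient of the first circle in the boundary of the three tori -/
def tv1 : List (List (List (List Int))) :=
[[[[0, 0, 0, 0, 0, 0, 0, 0], [7560, -3480, -6945, 52236, -145705, 223179, 26033], [24720, -23145,
   10050, 53249, -183957, 167875], [56160, -47541, 20678, 46323, -66703], [107712, -85029, 24087,
   7511], [186480, -154806, 91253], [300960, -264723], [461160]],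
  [[0, 0, 0, 0, 0, 0, 0], [0, 0, 0, 0, 0, 0], [5040, -1740, -2778, 17412, -41630], [18540,
   -13887, 5025, 22821], [44928, -31694, 11816], [89760, -60735], [159840]],
  [[0, 0, 0, 0, 0, 0], [0, 0, 0, 0, 0], [0, 0, 0, 0], [3780, -1044, -1389], [14832, -9258],
   [37440]],
  [[0, 0, 0, 0, 0], [0, 0, 0, 0], [0, 0, 0], [0, 0], [3024]],
  [[0, 0, 0, 0], [0, 0, 0], [0, 0], [0]],
  [[0, 0, 0], [0, 0], [0]],
  [[0, 0], [0]],
  [[0]]],
 [[[0, 0, 0, 0, 0, 0, 0], [0, -2520, 1740, 4167, -34824, 104075], [0, -6180, 9258, -5025,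
   -30428], [0, -11232, 15847, -8862], [0, -17952, 24294], [0, -26640], [0]],
  [[0, 0, 0, 0, 0, 0], [0, 0, 0, 0, 0], [0, -1260, 696, 1389], [0, -3708, 4629], [0, -7488], [0]],
  [[0, 0, 0, 0, 0], [0, 0, 0, 0], [0, 0, 0], [0, -756], [0]],
  [[0, 0, 0, 0], [0, 0, 0], [0, 0], [0]],
  [[0, 0, 0], [0, 0], [0]],
  [[0, 0], [0]],
  [[0]]],
 [[[0, 0, 0, 0, 0, 0], [0, 0, 1260, -1044, -2778], [0, 0, 2472, -4629], [0, 0, 3744], [0, 0],
   [0]],
  [[0, 0, 0, 0, 0], [0, 0, 0, 0], [0, 0, 504], [0, 0], [0]],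
  [[0, 0, 0, 0], [0, 0, 0], [0, 0], [0]],
  [[0, 0, 0], [0, 0], [0]],
  [[0, 0], [0]],
  [[0]]],
 [[[0, 0, 0, 0, 0], [0, 0, 0, -756], [0, 0, 0], [0, 0], [0]],
  [[0, 0, 0, 0], [0, 0, 0], [0, 0], [0]],
  [[0, 0, 0], [0, 0], [0]],
  [[0, 0], [0]],
  [[0]]],
 [[[0, 0, 0, 0], [0, 0, 0], [0, 0], [0]],
  [[0, 0, 0], [0, 0], [0]],
  [[0, 0], [0]],
  [[0]]],
 [[[0, 0, 0], [0, 0], [0]],
  [[0, 0], [0]],
  [[0]]],
 [[[0, 0], [0]],
  [[0]]],
 [[[0]]]]

/-- coefficient of the second circle -/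
def tv3 : List (List (List (List Int))) :=
[[[[0, 2442, -1716, 776, -4018, 4852, -6910, -6732], [0, 6442, -7156, 2264, -6386, 14772, -6910],
   [-2520, 15678, -19792, 9268, -9790, 33372], [-13320, 35622, -44200, 27596, -14230], [-42840,
   76036, -86386, 66686], [-108120, 153372, -153786], [-235080, 294072], [-461160]],
  [[0, 502, 756, 926, -1946, -3828, -6910], [0, 1618, 510, -1408, -3278, -2588], [504, 4442,
   -2928, -3308, -5646], [-828, 11206, -12704, -2596], [-9336, 26332, -33394], [-34920, 57932],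
   [-93960]],
  [[960, 30, -250, 3446, -910, -3828], [-192, 386, 1266, 1646, -1206], [-156, 1262, 2164, -1172],
   [708, 3450, 728], [360, 8732], [-6120]],
  [[2880, -144, -1874, 4706, -910], [864, -14, -598, 4166], [-420, 288, 1204], [-432, 1014],
   [648]],
  [[5040, -200, -2686, 4706], [2928, -152, -2222], [792, -40], [-648]],
  [[6720, -228, -2686], [5160, -208], [3000]],
  [[7560, -228], [6840]],
  [[7560]]],
 [[[0, 0, -824, 2226, -2184, 740, -7440], [0, 504, -2000, 4228, -5572, 740], [0, 1692, -4472,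
   7088, -11864], [0, 3984, -9290, 10806], [0, 7920, -18104], [0, 14160], [0]],
  [[0, -192, -116, 510, 720, 740], [0, -156, -356, 1654, 236], [0, 204, -992, 3656], [0, 1188,
   -2474], [0, 3216], [0]],
  [[0, -96, -44, -348, 720], [0, -228, -98, -62], [0, -276, -248], [0, -60], [0]],
  [[0, 48, -8, -348], [0, -72, -26], [0, -228], [0]],
  [[0, 120, -8], [0, 72], [0]],
  [[0, 120], [0]],
  [[0]]],
 [[[0, 0, -156, 468, -572, 2420], [0, 0, -300, 1008, -572], [0, 0, -504, 1998], [0, 0, -768], [0,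
   0], [0]],
  [[0, 0, -36, 18, -572], [0, 0, -120, 108], [0, 0, -264], [0, 0], [0]],
  [[0, 0, 24, 18], [0, 0, 0], [0, 0], [0]],
  [[0, 0, 24], [0, 0], [0]],
  [[0, 0], [0]],
  [[0]]],
 [[[0, 0, 0, 36, -360], [0, 0, 0, 36], [0, 0, 0], [0, 0], [0]],
  [[0, 0, 0, 36], [0, 0, 0], [0, 0], [0]],
  [[0, 0, 0], [0, 0], [0]],
  [[0, 0], [0]],
  [[0]]],
 [[[0, 0, 0, 0], [0, 0, 0], [0, 0], [0]],
  [[0, 0, 0], [0, 0], [0]],
  [[0, 0], [0]],
  [[0]]],
 [[[0, 0, 0], [0, 0], [0]],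
  [[0, 0], [0]],
  [[0]]],
 [[[0, 0], [0]],
  [[0]]],
 [[[0]]]]

/-- coefficient of the third circle -/
def tv5 : List (List (List (List Int))) :=
[[[[0, 0, 0, 0, 0, 0, 0, 0], [0, 0, 0, 0, 0, 0, 0], [0, 0, 0, 0, 0, 0], [0, 0, 0, 0, 0], [0, 0,
   0, 0], [0, 0, 0], [0, 0], [0]],
  [[-2880, 1840, 7485, -51924, 208495, -692377, 1855441], [0, 0, 0, 0, 0, 0], [0, 0, 0, 0, 0],
   [0, 0, 0, 0], [0, 0, 0], [0, 0], [0]],
  [[-5760, 8955, -984, -57673, 283517, -942935], [-1920, 920, 2994, -17308, 59570], [0, 0, 0, 0],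
   [0, 0, 0], [0, 0], [0]],
  [[-7920, 12204, 10927, -134686, 522625], [-4320, 5373, -492, -24717], [-1440, 552, 1497], [0,
   0], [0]],
  [[-9072, 12019, 40075, -249651], [-6336, 8136, 6244], [-3456, 3582], [-1152]],
  [[-9240, 17423, 38621], [-7560, 8585], [-5280]],
  [[-8640, 49859], [-7920]],
  [[-7560]]],
 [[[0, 0, 0, 0, 0, 0, 0], [0, 0, 0, 0, 0, 0], [0, 0, 0, 0, 0], [0, 0, 0, 0], [0, 0, 0], [0, 0],
   [0]],
  [[0, 960, -920, -4491, 34616, -148925], [0, 0, 0, 0, 0], [0, 0, 0, 0], [0, 0, 0], [0, 0], [0]],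
  [[0, 1440, -3582, 492, 32956], [0, 480, -368, -1497], [0, 0, 0], [0, 0], [0]],
  [[0, 1584, -4068, -4683], [0, 864, -1791], [0, 288], [0]],
  [[0, 1512, -3434], [0, 1056], [0]],
  [[0, 1320], [0]],
  [[0]]],
 [[[0, 0, 0, 0, 0, 0], [0, 0, 0, 0, 0], [0, 0, 0, 0], [0, 0, 0], [0, 0], [0]],
  [[0, 0, -480, 552, 2994], [0, 0, 0, 0], [0, 0, 0], [0, 0], [0]],
  [[0, 0, -576, 1791], [0, 0, -192], [0, 0], [0]],
  [[0, 0, -528], [0, 0], [0]],
  [[0, 0], [0]],
  [[0]]],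
 [[[0, 0, 0, 0, 0], [0, 0, 0, 0], [0, 0, 0], [0, 0], [0]],
  [[0, 0, 0, 288], [0, 0, 0], [0, 0], [0]],
  [[0, 0, 0], [0, 0], [0]],
  [[0, 0], [0]],
  [[0]]],
 [[[0, 0, 0, 0], [0, 0, 0], [0, 0], [0]],
  [[0, 0, 0], [0, 0], [0]],
  [[0, 0], [0]],
  [[0]]],
 [[[0, 0, 0], [0, 0], [0]],
  [[0, 0], [0]],
  [[0]]],
 [[[0, 0], [0]],
  [[0]]],
 [[[0]]]]

end Vale.Agent.P273.H480
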