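/-!
The integral certificate: five three-chains and the half twist invariant part `n3`.
A table `t` is a nested list: `t[a0][a1][a2][a3]` is the value of the functional at the monomial
`X0^a0 X1^a1 X2^a2 X3^a3 X4^a4` of degree seven, `a4 = 7 - a0 - a1 - a2 - a3`
(`X0, ..., X4` are the bivectors `e1 e2, e1 f2, f1 e2, f1 f2, e1 f1`), all 330 values.
-/

namespace Vale.Agent.P273.H480

/-- coefficient of the cell 124 -/
def tY124 : List (List (List (List Int))) :=
[[[[0, 0, 12, -18, -68, 135, -87, -42], [-225, 6, 42, -48, 34, 67, -20], [-216, 48, 4, -2, 122,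
   -8], [-8, 37, -17, 87, -8], [24, -23, 9, -20], [34, -44, -35], [18, -35], [-2]],
  [[0, 0, 480, -270, 56, -10, 0], [0, 240, -6, -44, 27, 60], [-70, 84, -22, 13, 79], [-99, 25, 3,
   72], [12, 9, 45], [10, 10], [32]],
  [[-12, 480, -120, 80, -84, -200], [240, 108, 169, -120, -104], [148, 193, -38, -70], [28, 48,
   -32], [-62, 12], [10]],
  [[-72, 90, 20, 60, -228], [162, 289, -44, -147], [333, 84, -61], [195, 45], [11]],
  [[-172, -64, 204, -48], [-50, 162, -61], [262, 99], [276]],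
  [[-185, 110, 140], [-55, 30], [-10]],
  [[-88, 120], [-75]],
  [[42]]],
 [[[-225, 0, 240, -18, -26, 95, -75], [-40, 155, 78, -64, 61, 45], [-30, 117, -23, -1, 74], [15,
   20, -28, 62], [33, -14, 33], [-26, -2], [-19]],
  [[-6, 240, 108, -311, 150, -160], [5, 148, -47, -32, -26], [64, 98, -36, -10], [30, 37, -13],
   [18, -2], [15]],
  [[-102, 174, -191, 76, -227], [138, 93, -24, -230], [98, 47, -148], [70, -17], [-1]],
  [[-108, 22, 72, -81], [-12, 100, -190], [156, -57], [55]],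
  [[-17, 117, 94], [-1, 40], [24]],
  [[69, 110], [60]],
  [[13]]],
 [[[-44, 230, 148, -287, -14, 0], [-100, 104, -57, -114, 54], [-60, 60, -80, 10], [-1, 3, -22],
   [20, -18], [39]],
  [[-78, 144, -147, -132, 81], [52, 93, -101, -101], [10, 6, -115], [-11, -31], [-14]],
  [[-20, 90, -74, 1], [19, 18, -150], [50, -43], [-7]],
  [[31, 107, 18], [34, 36], [38]],
  [[123, 77], [82]],
  [[1]]],
 [[[13, 96, -137, -249, 186], [-117, 110, -98, -58], [-32, 49, -91], [46, -13], [24]],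
  [[35, 97, -126, -3], [25, -2, -136], [-29, -17], [-20]],
  [[31, 54, -54], [24, 19], [27]],
  [[88, 51], [64]],
  [[4]]],
 [[[8, 12, -98, 1], [-71, 88, -127], [17, 12], [-53]],
  [[20, -11, -78], [-7, 2], [-16]],
  [[11, 33], [35]],
  [[19]]],
 [[[-33, -15, -10], [-69, 55], [-96]],
  [[-42, 15], [1]],
  [[33]]],
 [[[17, 34], [-49]],
  [[28]]],
 [[[2]]]]

/-- coefficient of the cell 125 -/
def tY125 : List (List (List (List Int))) :=
[[[[996, -1008, 420, -137, 38, 33, 0, 0], [0, -6, 26, 27, -88, 138, 25], [12, -60, 6, 74, -101,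
   -7], [102, -58, -45, 9, -3], [88, 41, 36, -1], [-55, -1, 9], [-27, -7], [-28]],
  [[282, -10, -75, 30, 64, 0, 0], [498, -576, 303, -101, 48, 39], [240, -219, 108, -49, -33],
   [135, -112, 42, 18], [112, -48, -15], [70, 25], [-30]],
  [[-100, 20, 0, 16, 0, 0], [-52, 139, -112, 60, 104], [124, -239, 114, -55], [170, -159, 58],
   [132, -88], [100]],
  [[-133, 63, 5, 0, 0], [-57, -4, -45, 66], [-95, 147, -92], [-30, -93], [87]],
  [[26, 49, 0, 0], [-48, -62, -16], [12, -13], [-60]],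
  [[43, 0, 0], [-5, -35], [10]],
  [[0, 0], [-6]],
  [[0]]],
 [[[0, -498, 432, -117, 36, 10, 6], [0, 240, -213, 82, -76, 55], [0, 123, -52, 36, -56], [0, 10,
   10, 30], [0, -18, -16], [0, 25], [0]],
  [[6, -334, 149, -37, 30, 40], [240, -374, 337, -189, 46], [168, -70, 60, -50], [76, -3, 24],
   [12, -12], [0]],
  [[14, 43, -24, -45, 50], [-93, -43, 8, 20], [110, -154, 146], [128, -83], [86]],
  [[75, 85, -125, -21], [-32, 69, -9], [-99, 35], [15]],
  [[141, -31, -84], [58, 58], [-24]],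
  [[140, -49], [130]],
  [[-32]]],
 [[[-12, 240, 124, -95, -72, 10], [0, 168, -310, 273, -132], [0, 76, -126, 76], [0, 12, -22], [0,
   0], [0]],
  [[30, -99, 291, -141, 57], [123, -130, 220, -191], [76, -40, -13], [20, 10], [-24]],
  [[-20, -46, 26, 15], [8, -6, 78], [78, -95], [78]],
  [[-132, -17, -27], [-24, 8], [-16]],
  [[-105, -11], [-96]],
  [[14]]],
 [[[-132, 135, -370, 96, -96], [0, 76, -208, 297], [0, 20, -66], [0, -24], [0]],
  [[-68, -22, 93, -213], [4, -45, 35], [12, 2], [-24]],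
  [[80, -4, 54], [0, -24], [20]],
  [[14, 36], [45]],
  [[0]]],
 [[[92, 136, -180, 405], [0, 12, -74], [0, -24], [0]],
  [[-48, 68, -2], [12, 16], [0]],
  [[31, -35], [-18]],
  [[2]]],
 [[[55, -80, -120], [0, 0], [0]],
  [[3, 30], [25]],
  [[-12]]],
 [[[-28, -30], [0]],
  [[14]]],
 [[[14]]]]

/-- coefficient of the cell 235 -/
def tY235 : List (List (List (List Int))) :=
[[[[64, 524, 134, 86, 150, 43, 0, 0], [342, 340, 151, 84, -268, -162, 11], [136, 97, 7, 98, 49,
   116], [70, 7, -64, -64, -116], [57, 7, -14, -41], [51, 33, 40], [25, 51], [-21]],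
  [[-409, -162, 238, 112, -127, 0, 0], [146, 340, 80, 80, 185, 49], [218, 220, 26, -68, -13],
   [68, 63, -14, -126], [47, 6, 17], [67, 5], [71]],
  [[-241, 103, 0, -22, 0, 0], [-246, -43, 212, 224, -207], [121, 215, 12, 69], [121, 113, -35],
   [37, -3], [93]],
  [[36, 51, -8, 0, 0], [-156, 82, 55, -79], [-132, 78, 80], [22, 251], [-78]],
  [[24, -57, 0, 0], [35, -50, 13], [29, -11], [65]],
  [[-154, 0, 0], [-6, 34], [-2]],
  [[0, 0], [33]],
  [[0]]],
 [[[30, 82, -184, -54, -6, 35, 6], [0, -124, -120, -125, -152, 255], [0, -68, -34, -21, -224],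
   [0, -23, -1, 81], [0, 10, -2], [0, 20], [0]],
  [[-199, 163, 119, -26, 112, -80], [-62, -25, -125, -68, -11], [-12, -97, -107, -61], [28, -31,
   -66], [36, 46], [0]],
  [[-467, 85, -21, 55, -57], [-221, 114, 121, -132], [-132, -99, 36], [-8, -199], [134]],
  [[-512, -1, -101, 21], [-317, 185, -93], [-276, 197], [-273]],
  [[-361, -30, 91], [-306, -37], [-188]],
  [[1, 187], [-260]],
  [[-138]]],
 [[[8, -92, -107, 59, -14, -5], [0, -12, 27, 13, 64], [0, 28, 37, -32], [0, 36, 69], [0, 0], [0]],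
  [[132, -22, -49, 2, -106], [35, -70, -74, 161], [52, 4, -102], [36, 106], [-24]],
  [[55, 150, 100, -72], [12, -55, 83], [42, -141], [126]],
  [[-187, 206, -36], [-32, 129], [-46]],
  [[-319, 101], [-172]],
  [[-117]]],
 [[[-207, 27, 22, 33, 102], [0, 52, 16, -129], [0, 36, 78], [0, -24], [0]],
  [[-121, -120, -33, 132], [-11, 7, -71], [12, 74], [-24]],
  [[162, -87, -21], [-16, -58], [15]],
  [[97, 15], [123]],
  [[-39]]],
 [[[180, 196, -20, -93], [0, 12, 22], [0, -24], [0]],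
  [[-117, 105, 62], [20, 26], [0]],
  [[31, -39], [-72]],
  [[76]]],
 [[[90, -160, -170], [0, 0], [0]],
  [[-40, 45], [30]],
  [[-29]]],
 [[[-101, -60], [0]],
  [[-20]]],
 [[[21]]]]

/-- coefficient of the cell 134 -/
def tY134 : List (List (List (List Int))) :=
[[[[953, 1210, 482, -43, 181, 76, 0, 0], [520, 162, -106, 45, -16, 0, 0], [-15, -101, -1, -29, 0,
   0], [209, 168, -7, 0, 0], [251, -116, 0, 0], [-222, 0, 0], [0, 0], [0]],
  [[381, 433, 389, 74, -144, -165, -18], [830, 778, 323, 1, 226, 89], [587, 316, 6, 92, -31],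
   [61, -23, -168, -110], [37, -167, 27], [-60, 76], [42]],
  [[-255, -186, -10, 70, 96, 23], [73, 78, 111, -25, -149], [473, 347, 96, 45], [342, 194, 114],
   [9, 38], [-21]],
  [[-107, -135, -111, -144, -169], [-225, -166, -43, 0], [-29, -40, -37], [215, -1], [-25]],
  [[11, -9, 15, 55], [-77, -87, -33], [-183, -98], [0]],
  [[43, -5, -100], [14, -35], [-75]],
  [[57, 80], [53]],
  [[1]]],
 [[[390, -123, -432, -159, 44, 45, 13], [512, 67, 154, 112, 47, -15], [411, 76, 78, -167, -81],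
   [149, -172, -335, 34], [-86, -311, 192], [74, 264], [-287]],
  [[0, -308, -355, -278, -99, -5], [136, -357, -431, -227, 44], [209, -245, -122, 108], [160,
   -52, 61], [63, -58], [-10]],
  [[0, 30, 20, -33, -70], [57, -102, -118, -148], [132, -258, -348], [84, -367], [-62]],
  [[0, 30, 48, 78], [13, 42, 68], [98, 29], [207]],
  [[0, 3, -26], [-6, 2], [0]],
  [[0, 10], [0]],
  [[0]]],
 [[[-164, -254, -234, 1, -68, 0], [-132, -303, -312, -276, -4], [-136, -251, -128, -17], [-124,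
   -86, 114], [-40, 76], [-161]],
  [[0, 57, 206, 237, 130], [4, -4, 99, 83], [6, -125, -122], [-56, -222], [-114]],
  [[0, 13, 12, 48], [5, 41, 131], [54, 75], [82]],
  [[0, -6, -28], [-10, -13], [-6]],
  [[0, 0], [0]],
  [[0]]],
 [[[90, 168, 250, 333, 82], [119, 138, 178, 190], [86, 80, 29], [-103, 10], [50]],
  [[0, 5, -16, -75], [16, 50, 79], [50, 76], [39]],
  [[0, -10, -26], [-6, -11], [2]],
  [[0, 0], [0]],
  [[0]]],
 [[[-4, -74, -118, -171], [-80, -69, -62], [57, -47], [45]],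
  [[0, -6, -16], [1, -14], [-20]],
  [[0, 0], [0]],
  [[0]]],
 [[[140, 5, 60], [-46, 60], [-39]],
  [[0, 0], [20]],
  [[0]]],
 [[[149, -120], [-13]],
  [[0]]],
 [[[71]]]]

/-- coefficient of the cell 234 -/
def tY234 : List (List (List (List Int))) :=
[[[[47, 189, 100, 63, -171, -271, -263, 294], [112, 122, -2, -23, -51, -13, 127], [70, 48, -91,
   -74, 6, -85], [-29, -1, -147, -64, 15], [-68, -2, -114, 162], [32, 40, 60], [34, -62], [-56]],
  [[-15, 66, -79, -22, -126, 46, -53], [29, 32, -95, -6, 39, 164], [75, -23, -133, -45, 79], [41,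
   -57, -141, -38], [-25, -6, -51], [-29, 112], [7]],
  [[-64, -6, -100, 32, -114, 33], [-86, 16, -73, 94, 34], [-13, -15, -83, 75], [48, -44, -53],
   [68, 1], [30]],
  [[-45, -14, -46, 22, -294], [-109, 42, -26, 149], [-97, 47, -3], [-7, 33], [97]],
  [[32, -29, 3, -138], [-82, 33, -1], [-128, 96], [-93]],
  [[215, -77, 50], [-34, -59], [-143]],
  [[205, -85], [105]],
  [[-119]]],
 [[[135, -18, -157, -195, -69, 210, 435], [33, -37, -145, -131, -22, 130], [43, -29, -105, -50,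
   36], [96, 4, -5, 96], [102, 39, 114], [-45, -25], [-1]],
  [[9, -71, -50, 6, 116, 160], [6, -42, -47, 12, 81], [-19, -27, -21, 80], [18, 27, 58], [95,
   55], [65]],
  [[-77, -45, 48, 74, 117], [10, -11, 31, 70], [4, 6, 48], [11, 49], [45]],
  [[-61, -37, 47, 45], [-25, -19, 54], [20, 4], [28]],
  [[-6, -66, -30], [-48, -61], [-19]],
  [[-136, -110], [-40]],
  [[4]]],
 [[[-176, -129, -24, 110, 207, 150], [18, -52, 10, 124, 211], [33, -25, 56, 163], [-22, -1, 51],
   [-39, -37], [119]],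
  [[-107, 1, 60, 81, 64], [-35, -2, 48, 95], [30, 30, 76], [57, 27], [-16]],
  [[-7, 52, 26, 6], [-22, 10, 15], [13, 24], [58]],
  [[-52, 13, -24], [-2, 6], [1]],
  [[-197, -34], [-19]],
  [[-50]]],
 [[[118, 141, 127, 72, -15], [-79, 12, 82, 66], [-113, 24, 52], [16, 6], [-2]],
  [[100, 85, 9, -45], [40, 48, 26], [-4, 28], [-47]],
  [[57, 5, -46], [30, 23], [27]],
  [[15, 33], [22]],
  [[3]]],
 [[[-52, -78, -93, -101], [-4, 75, 16], [142, 66], [-104]],
  [[48, -70, -62], [-17, -13], [-4]],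
  [[-17, -35], [-2]],
  [[124]]],
 [[[17, 35, 65], [235, 0], [-6]],
  [[-208, -50], [6]],
  [[-137]]],
 [[[34, -11], [-245]],
  [[-106]]],
 [[[0]]]]

/-- the part of the coefficient of the cell 34 which is fixed by s3 -/
def tn3 : List (List (List (List Int))) :=
[[[[-3713, 615, 2392, -2260, -3983, 2224, 1018, -3366], [-4588, 2004, 1534, -4716, -2873, 7083,
   5491], [-5139, 3051, -514, -6670, 1655, 16282], [-5690, 3291, -3338, -6064, 12553], [-6649,
   2724, -5239, 975], [-8084, 2595, -2233], [-8903, 6624], [-5494]],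
  [[-2466, -754, 2570, 169, -4257, -2015, -3455], [-3775, 607, 2902, -2224, -6073, -1496],
   [-4628, 2181, 2044, -5810, -7423], [-5109, 3353, -625, -10346], [-5594, 3343, -5441], [-6651,
   1536], [-8688]],
  [[-855, -1761, 1715, 2091, -2097, -1914], [-2514, -929, 2923, 1093, -3887], [-3855, 581, 3726,
   -978], [-4682, 2484, 3468], [-5047, 4150], [-5330]],
  [[868, -2058, 355, 2537, -455], [-847, -2001, 1590, 2451], [-2572, -1221, 2990], [-3971, 357],
   [-4804]],
  [[2355, -1642, -697, 2353], [936, -2171, 181], [-823, -2232], [-2622]],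
  [[3338, -885, -1343], [2437, -1646], [1016]],
  [[3769, -114], [3398]],
  [[3780]]],
 [[[0, -62, -8, 510, 36, -2090, -3720], [0, -40, 177, 510, -1094, -4550], [0, 30, 302, -111,
   -3676], [0, 96, 52, -2103], [0, -2, -1188], [0, -604], [0]],
  [[0, -48, -175, 353, 924, 370], [0, -80, -26, 824, 1246], [0, -54, 303, 1424], [0, 62, 797],
   [0, 264], [0]],
  [[0, 8, -240, -125, 360], [0, -58, -292, 67], [0, -116, -224], [0, -122], [0]],
  [[0, 68, -113, -174], [0, 24, -231], [0, -50], [0]],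
  [[0, 82, -4], [0, 80], [0]],
  [[0, 60], [0]],
  [[0]]],
 [[[0, 0, -18, -18, 314, 1210], [0, 0, -14, 126, 914], [0, 0, 32, 495], [0, 0, 168], [0, 0], [0]],
  [[0, 0, -10, -117, -286], [0, 0, -36, -198], [0, 0, -68], [0, 0], [0]],
  [[0, 0, 16, 9], [0, 0, 8], [0, 0], [0]],
  [[0, 0, 12], [0, 0], [0]],
  [[0, 0], [0]],
  [[0]]],
 [[[0, 0, 0, -18, -180], [0, 0, 0, -54], [0, 0, 0], [0, 0], [0]],
  [[0, 0, 0, 18], [0, 0, 0], [0, 0], [0]],
  [[0, 0, 0], [0, 0], [0]],
  [[0, 0], [0]],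
  [[0]]],
 [[[0, 0, 0, 0], [0, 0, 0], [0, 0], [0]],
  [[0, 0, 0], [0, 0], [0]],
  [[0, 0], [0]],
  [[0]]],
 [[[0, 0, 0], [0, 0], [0]],
  [[0, 0], [0]],
  [[0]]],
 [[[0, 0], [0]],
  [[0]]],
 [[[0]]]]

end Vale.Agent.P273.H480
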